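import Vale.Agent.P224.PO.LawO
import Vale.Agent.P224.PO.LawNumO

/-!
The numerical law of the certificate in dimension 2.
-/

namespace Vale.Agent.P224.PO.M2

open Vale.Agent.P224 Vale.Agent.P224.UE Vale.Agent.P224.POS Vale.Agent.P224.PO

/-- the ratio of the least Clifford volume in dimension 2 -/
lemma clifford_le : leastClifford 2 ≤ 3141593 / 2000000 * sphereVol 2 :=
  even_bound (k := 1) (by norm_num) (by
    rw [evenRatio_one]
    have := Real.pi_lt_d6
    linarith)

/-- The numerical law in dimension 2. -/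
theorem law_neg {Θ u r H : ℝ} (h1 : 6 / 5 ≤ Θ) (h2 : Θ ≤ 311017707 / 200000000) (hu : 0 ≤ u)
    (hT : Θ ^ 2 * u ≤ 1) (hr1 : u ^ 2 ≤ r) (hr2 : r ≤ u)
    (hH : H = -(1630629 / 2097152) + (-(16810279 / 12582912)) * u + (12353003 / 6291456) * r) :
    Θ * (1 + (6725235 / 4194304) * u + (-(5300373 / 2097152)) * r + (1120527 / 4194304) * u ^ 2) + KH 2 * H < 0 := by
  have hb : (2 : ℝ) ≤ KH 2 ∧ KH 2 ≤ 2 := ⟨KH_two.ge, KH_two.le⟩
  rw [hH]
  exact law_two (Tm := 311017707 / 200000000) hb.1 hb.2 (by norm_num) (by norm_num) (by norm_num) (by norm_num)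
    (by norm_num) (by norm_num) (by norm_num)
    (fun T hT1 hT2 => quintic_neg (by norm_num) (by norm_num) (by norm_num) (by norm_num)
      (by norm_num) (by norm_num) (by norm_num) (le_of_eq rfl) (le_of_eq rfl) (le_of_eq rfl)
      (le_of_eq rfl) (le_of_eq rfl) (le_of_eq rfl) hT1 hT2)
    (fun T hT1 hT2 => quintic_neg (by norm_num) (by norm_num) (by norm_num) (by norm_num)
      (by norm_num) (by norm_num) (by norm_num) (le_of_eq rfl) (le_of_eq rfl) (le_of_eq rfl)
      (le_of_eq rfl) (le_of_eq rfl) (le_of_eq rfl) hT1 hT2)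
    (fun T hT1 hT2 => quintic_neg (by norm_num) (by norm_num) (by norm_num) (by norm_num)
      (by norm_num) (by norm_num) (by norm_num) (le_of_eq rfl) (le_of_eq rfl) (le_of_eq rfl)
      (le_of_eq rfl) (le_of_eq rfl) (le_of_eq rfl) hT1 hT2)
    (fun T hT1 hT2 => quintic_neg (by norm_num) (by norm_num) (by norm_num) (by norm_num)
      (by norm_num) (by norm_num) (by norm_num) (le_of_eq rfl) (le_of_eq rfl) (le_of_eq rfl)
      (le_of_eq rfl) (le_of_eq rfl) (le_of_eq rfl) hT1 hT2)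
    h1 h2 hu hT hr1 hr2

end Vale.Agent.P224.PO.M2
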