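import Vale.Agent.P224.POS.Psd

/-!
Certificate data: Gram matrices 8,9,10,11,12,13 and their positive semidefiniteness.
-/

namespace Vale.Agent.P224.PO.M2

open Vale.Agent.P224.POS

noncomputable section

/-- Gram matrix of block 8 ((u1-E)*sca00), rows of the lower triangle -/
def G8 : List (List Int) := rowsZ 2048 [
  1542] 0

/-- witness of block 8 -/
def W8 : List (List Nat) := rowsN 32 [
  30] 0

set_option maxRecDepth 100000 in
theorem psd8 : psdChk 16 1 155 W8 G8 = true := by decide +kernel

/-- Gram matrix of block 9 ((u1-E)*sca10), rows of the lower triangle -/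
def G9 : List (List Int) := rowsZ 2048 [
  1542] 0

/-- witness of block 9 -/
def W9 : List (List Nat) := rowsN 32 [
  30] 0

set_option maxRecDepth 100000 in
theorem psd9 : psdChk 16 1 155 W9 G9 = true := by decide +kernel

/-- Gram matrix of block 10 ((u1-E)*sca11), rows of the lower triangle -/
def G10 : List (List Int) := rowsZ 8192 [
  7142] 0

/-- witness of block 10 -/
def W10 : List (List Nat) := rowsN 128 [
  99] 0

set_option maxRecDepth 100000 in
theorem psd10 : psdChk 64 1 913 W10 G10 = true := by decide +kernel

/-- Gram matrix of block 11 (r(u1-E)*sca00), rows of the lower triangle -/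
def G11 : List (List Int) := rowsZ 2048 [
  1542] 0

/-- witness of block 11 -/
def W11 : List (List Nat) := rowsN 32 [
  30] 0

set_option maxRecDepth 100000 in
theorem psd11 : psdChk 16 1 155 W11 G11 = true := by decide +kernel

/-- Gram matrix of block 12 (r(u1-E)*sca10), rows of the lower triangle -/
def G12 : List (List Int) := rowsZ 2048 [
  1542] 0

/-- witness of block 12 -/
def W12 : List (List Nat) := rowsN 32 [
  30] 0

set_option maxRecDepth 100000 in
theorem psd12 : psdChk 16 1 155 W12 G12 = true := by decide +kernel

/-- Gram matrix of block 13 (r(u1-E)*sca11), rows of the lower triangle -/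
def G13 : List (List Int) := rowsZ 16384 [
  13182] 0

/-- witness of block 13 -/
def W13 : List (List Nat) := rowsN 128 [
  109] 0

set_option maxRecDepth 100000 in
theorem psd13 : psdChk 64 1 1496 W13 G13 = true := by decide +kernel

end

end Vale.Agent.P224.PO.M2
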