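import Vale.Agent.P224.PO.RowsO

/-!
Certificate data in dimension 2: value terms and rows.
-/

namespace Vale.Agent.P224.PO.M2

open Vale.Agent.P224.UE Vale.Agent.P224.POS Vale.Agent.P224.PO

noncomputable section

/-- the rows: integer coefficient and term (family, e, i, j, d, k, l) -/
def rows : List (Int × HTerm) := [
  (-13420736, ⟨0, -2, 0, 0, 0, 0, 0⟩),
  (-7733336, ⟨0, 0, 0, 0, 0, 0, 0⟩),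
  (6394328, ⟨0, 1, 0, 0, 0, 0, 0⟩),
  (339456, ⟨0, -2, 2, 0, 0, 0, 0⟩),
  (-7189152, ⟨0, -1, 2, 0, 0, 0, 0⟩),
  (13421824, ⟨0, 0, 2, 0, 0, 0, 0⟩),
  (-5637880, ⟨0, 1, 2, 0, 0, 0, 0⟩),
  (-11412224, ⟨1, 0, 1, 0, 0, 0, 0⟩),
  (10334464, ⟨1, 1, 1, 0, 0, 0, 0⟩),
  (12669328, ⟨3, -2, 0, 0, 0, 0, 0⟩),
  (-9089648, ⟨3, 0, 0, 0, 0, 0, 0⟩),
  (5559144, ⟨3, 1, 0, 0, 0, 0, 0⟩),
  (276648, ⟨3, -2, 2, 0, 0, 0, 0⟩),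
  (-88288, ⟨3, -1, 2, 0, 0, 0, 0⟩),
  (22949544, ⟨0, -2, 0, 0, 0, 1, 0⟩),
  (18325968, ⟨0, -1, 0, 0, 0, 1, 0⟩),
  (-10917992, ⟨0, 0, 0, 0, 0, 1, 0⟩),
  (1130120, ⟨0, 1, 0, 0, 0, 1, 0⟩),
  (-69994016, ⟨0, -2, 1, 0, 1, 0, 0⟩),
  (137723496, ⟨0, -1, 1, 0, 1, 0, 0⟩),
  (-157598128, ⟨0, 0, 1, 0, 1, 0, 0⟩),
  (51733864, ⟨0, 1, 1, 0, 1, 0, 0⟩),
  (71049240, ⟨0, -2, 1, 1, 0, 0, 0⟩),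
  (-146162472, ⟨0, -1, 1, 1, 0, 0, 0⟩),
  (93595176, ⟨0, 0, 1, 1, 0, 0, 0⟩),
  (-36391520, ⟨0, 1, 1, 1, 0, 0, 0⟩),
  (2182784, ⟨1, 0, 1, 0, 0, 1, 0⟩),
  (555752, ⟨1, 1, 1, 0, 0, 1, 0⟩),
  (-100755016, ⟨1, -1, 0, 0, 1, 0, 0⟩),
  (148676672, ⟨1, 0, 0, 0, 1, 0, 0⟩),
  (-106424680, ⟨1, 1, 0, 0, 1, 0, 0⟩),
  (-4603664, ⟨1, -2, 2, 0, 1, 0, 0⟩),
  (4338640, ⟨1, -1, 2, 0, 1, 0, 0⟩),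
  (-1647376, ⟨1, 0, 2, 0, 1, 0, 0⟩),
  (100755016, ⟨1, -1, 0, 1, 0, 0, 0⟩),
  (42437968, ⟨1, 0, 0, 1, 0, 0, 0⟩),
  (-144221968, ⟨1, 1, 0, 1, 0, 0, 0⟩),
  (3876192, ⟨1, -2, 2, 1, 0, 0, 0⟩),
  (-5974552, ⟨1, -1, 2, 1, 0, 0, 0⟩),
  (1732376, ⟨1, 0, 2, 1, 0, 0, 0⟩),
  (-59083296, ⟨2, -1, 1, 0, 0, 0, 0⟩),
  (56627520, ⟨2, 1, 1, 0, 0, 0, 0⟩),
  (-26547880, ⟨3, -2, 0, 0, 0, 1, 0⟩),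
  (43356408, ⟨3, -1, 0, 0, 0, 1, 0⟩),
  (-7623688, ⟨3, 0, 0, 0, 0, 1, 0⟩),
  (1971264, ⟨3, 1, 0, 0, 0, 1, 0⟩),
  (-14727736, ⟨3, -2, 1, 0, 1, 0, 0⟩),
  (26510792, ⟨3, -1, 1, 0, 1, 0, 0⟩),
  (-6923392, ⟨3, 0, 1, 0, 1, 0, 0⟩),
  (15595600, ⟨3, -2, 1, 1, 0, 0, 0⟩),
  (-18740584, ⟨3, -1, 1, 1, 0, 0, 0⟩),
  (4422936, ⟨3, 0, 1, 1, 0, 0, 0⟩),
  (-25030440, ⟨4, -1, 0, 0, 0, 0, 0⟩),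
  (-1684688, ⟨5, -1, 1, 0, 0, 0, 0⟩),
  (1196000, ⟨5, 0, 1, 0, 0, 0, 0⟩),
  (1330856, ⟨5, 1, 1, 0, 0, 0, 0⟩),
  (-20233008, ⟨0, -2, 0, 0, 0, 0, 1⟩),
  (-94516120, ⟨0, 0, 0, 0, 0, 0, 1⟩),
  (48472544, ⟨0, 1, 0, 0, 0, 0, 1⟩),
  (-904304, ⟨0, -2, 0, 0, 0, 2, 0⟩),
  (83006728, ⟨0, 0, 0, 0, 0, 2, 0⟩),
  (-37912512, ⟨0, 1, 0, 0, 0, 2, 0⟩),
  (-61787088, ⟨0, -2, 0, 0, 2, 0, 0⟩),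
  (315682144, ⟨0, -1, 0, 0, 2, 0, 0⟩),
  (120093360, ⟨0, 0, 0, 0, 2, 0, 0⟩),
  (-18082584, ⟨0, 1, 0, 0, 2, 0, 0⟩),
  (14627792, ⟨0, -2, 0, 1, 1, 0, 0⟩),
  (-235492896, ⟨0, -1, 0, 1, 1, 0, 0⟩),
  (-14116344, ⟨0, 0, 0, 1, 1, 0, 0⟩),
  (-10018448, ⟨0, 1, 0, 1, 1, 0, 0⟩),
  (-42296408, ⟨0, -2, 0, 2, 0, 0, 0⟩),
  (-80189248, ⟨0, -1, 0, 2, 0, 0, 0⟩),
  (-491608, ⟨1, 0, 1, 0, 0, 2, 0⟩),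
  (-964656, ⟨1, 1, 1, 0, 0, 2, 0⟩),
  (312293112, ⟨1, 0, 0, 0, 1, 1, 0⟩),
  (-179828632, ⟨1, 1, 0, 0, 1, 1, 0⟩),
  (-14956840, ⟨1, -2, 1, 0, 2, 0, 0⟩),
  (31965336, ⟨1, -1, 1, 0, 2, 0, 0⟩),
  (5312856, ⟨1, 0, 1, 0, 2, 0, 0⟩),
  (-38257336, ⟨1, 1, 1, 0, 2, 0, 0⟩),
  (26003984, ⟨1, 0, 0, 1, 0, 1, 0⟩),
  (-18580128, ⟨1, 1, 0, 1, 0, 1, 0⟩),
  (22185176, ⟨1, -2, 1, 1, 1, 0, 0⟩),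
  (-8233976, ⟨1, -1, 1, 1, 1, 0, 0⟩),
  (-36334008, ⟨1, 0, 1, 1, 1, 0, 0⟩),
  (19836608, ⟨1, 1, 1, 1, 1, 0, 0⟩),
  (-7228336, ⟨1, -2, 1, 2, 0, 0, 0⟩),
  (-23731360, ⟨1, -1, 1, 2, 0, 0, 0⟩),
  (18478784, ⟨1, 0, 1, 2, 0, 0, 0⟩),
  (-6865336, ⟨1, 1, 1, 2, 0, 0, 0⟩),
  (144245848, ⟨2, 0, 0, 0, 1, 0, 0⟩),
  (-595436600, ⟨2, 1, 0, 0, 1, 0, 0⟩),
  (-297449488, ⟨2, 0, 0, 1, 0, 0, 0⟩),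
  (292845704, ⟨2, 1, 0, 1, 0, 0, 0⟩),
  (14172312, ⟨3, -2, 0, 0, 0, 0, 1⟩),
  (-6867472, ⟨3, -2, 0, 0, 0, 2, 0⟩),
  (5250520, ⟨3, 0, 0, 0, 0, 2, 0⟩),
  (-3170712, ⟨3, 1, 0, 0, 0, 2, 0⟩),
  (128849960, ⟨3, -2, 0, 0, 2, 0, 0⟩),
  (12916824, ⟨3, -1, 0, 0, 2, 0, 0⟩),
  (2415384, ⟨3, -2, 0, 1, 1, 0, 0⟩),
  (19472632, ⟨3, -1, 0, 1, 1, 0, 0⟩),
  (-11373976, ⟨3, 0, 0, 1, 1, 0, 0⟩),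
  (-7001960, ⟨3, 1, 0, 1, 1, 0, 0⟩),
  (-40962504, ⟨3, -2, 0, 2, 0, 0, 0⟩),
  (-32389456, ⟨3, -1, 0, 2, 0, 0, 0⟩),
  (43306264, ⟨3, 0, 0, 2, 0, 0, 0⟩),
  (-17258280, ⟨3, 1, 0, 2, 0, 0, 0⟩),
  (-17981112, ⟨4, 0, 0, 0, 0, 1, 0⟩),
  (12938704, ⟨4, 1, 0, 0, 0, 1, 0⟩),
  (77828920, ⟨5, 0, 0, 0, 1, 0, 0⟩),
  (-48569608, ⟨5, 1, 0, 0, 1, 0, 0⟩),
  (-17659712, ⟨5, 0, 0, 1, 0, 0, 0⟩)]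

/-- the polynomial of the certificate (`8 D rr ^ 4` times the pointwise expression) -/
def P : PE := lhsH 2 4 33554432 21757112 (-117351760) 149396528 (-96515496) (-37040120) 46004336 11709528 0 rows

set_option maxRecDepth 100000 in
lemma rows_ok_all : (rows.all fun x => x.2.ok 2) = true := by decide +kernel

set_option maxRecDepth 100000 in
lemma rows_e_all : (rows.all fun x => decide (0 ≤ ((4 : ℕ) : ℤ) + x.2.e - 2)) = true := by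
  decide +kernel

lemma rows_e : ∀ x ∈ rows, 0 ≤ ((4 : ℕ) : ℤ) + x.2.e - 2 := fun x hx =>
  of_decide_eq_true (List.all_eq_true.1 rows_e_all x hx)

/-- all rows are admissible -/
lemma rows_ok : ∀ cT ∈ rlH 33554432 rows, cT.2.ok 2 = true := by
  intro cT hcT
  unfold rlH at hcT
  obtain ⟨x, hx, rfl⟩ := List.mem_map.1 hcT
  exact List.all_eq_true.1 rows_ok_all x hx

/-- the pointwise inequality from the positivity of the polynomial -/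
theorem pos_of {d : R9} (hd : d 0 < 1) (h : 0 ≤ PE.ev (vh d) P) :
    0 ≤ W9 (33554432 / 33554432) (21757112 / 33554432) (-117351760 / 33554432) (149396528 / 33554432) (-96515496 / 33554432) (-37040120 / 33554432) (46004336 / 33554432) (11709528 / 33554432) (0 / 33554432) d
      + hsum 2 (rlH 33554432 rows) d := by
  have h1 := nonneg_of_lhsH hd 2 (K := 4) (D := 33554432) (by norm_num) 33554432 21757112 (-117351760) 149396528 (-96515496) (-37040120) 46004336 11709528 0 rows_e h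
  push_cast at h1
  convert h1 using 2

end

end Vale.Agent.P224.PO.M2
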